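import Vale.Agent.P050.H546.GSpec

/-!
P050 (helper23): the entropies of the ends of the walks of length `j`: [GI]
-/

set_option linter.unusedSectionVars false

namespace Vale.Agent.P050.H23

open Finset Vale.Agent.P050.Cart Vale.Agent.P050.Join Vale.Agent.P050.M18 Vale.Agent.P050.H546

variable {U : Type} [Fintype U] [DecidableEq U] {Q : U × U → ℝ}

theorem EE_nn (hE : Edge Q) (j : ℕ) (x : U × U) : 0 ≤ EE Q j x :=
  mul_nonneg (hE.mm_nn _) (zp_nonneg (fun a b => hE.nb_nn a b) j _ _)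

theorem EE_zero (x y : U) : EE Q 0 (x, y) = if x = y then mm Q x else 0 := by
  show mm Q x * (if x = y then 1 else 0) = _
  split_ifs <;> simp

theorem EE_succ (j : ℕ) (x z : U) : EE Q (j + 1) (x, z) = ∑ y, EE Q j (x, y) * nb Q y z := by
  show mm Q x * ∑ y, zp (nb Q) j x y * nb Q y z = _
  rw [Finset.mul_sum]
  exact Finset.sum_congr rfl fun y _ => by
    show _ = mm Q x * zp (nb Q) j x y * nb Q y z
    ring

/-- reversibility -/
theorem EE_sym (hE : Edge Q) (j : ℕ) (x y : U) : EE Q j (x, y) = EE Q j (y, x) := by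
  induction j generalizing y with
  | zero =>
    rw [EE_zero, EE_zero]
    by_cases h : x = y
    · subst h; rfl
    · rw [if_neg h, if_neg (Ne.symm h)]
  | succ j ih =>
    rw [EE_succ]
    show _ = mm Q y * zp (nb Q) (j + 1) y x
    rw [zp_left, Finset.mul_sum]
    refine Finset.sum_congr rfl fun c _ => ?_
    rw [ih c]
    show mm Q c * zp (nb Q) j c x * nb Q c y = _
    have h1 := hE.mm_mul_nb c y
    have h2 := hE.mm_mul_nb y c
    have h3 := hE.sym c y
    calc mm Q c * zp (nb Q) j c x * nb Q c y = (mm Q c * nb Q c y) * zp (nb Q) j c x := by ring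
      _ = (mm Q y * nb Q y c) * zp (nb Q) j c x := by rw [h1, h2, h3]
      _ = _ := by ring

theorem EE_ne (hE : Edge Q) {j : ℕ} {x : U × U} (h : EE Q j x ≠ 0) : mm Q x.1 ≠ 0 ∧ mm Q x.2 ≠ 0 := by
  refine ⟨left_ne_zero_of_mul h, ?_⟩
  have h1 : EE Q j (x.2, x.1) ≠ 0 := by
    rw [EE_sym hE]
    exact h
  exact left_ne_zero_of_mul h1

/-- a neighbour of the end -/
noncomputable def GG3 (Q : U × U → ℝ) (j : ℕ) : (U × U) × U → ℝ :=
  att (EE Q j) (fun e => e.2) (nb Q)

theorem GG3_one (hE : Edge Q) (j : ℕ) (e : U × U) (he : EE Q j e ≠ 0) : ∑ z, nb Q e.2 z = 1 :=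
  hE.nb_one (EE_ne hE he).2

theorem EE_next (j : ℕ) : mar (GG3 Q j) (fun x => (x.1.1, x.2)) = EE Q (j + 1) := by
  funext ⟨x, z⟩
  rw [EE_succ]
  have h1 : mar (GG3 Q j) (fun x => (x.1.1, x.2)) (x, z) =
      ∑ d, mar (EE Q j) (fun e => (e.1, e.2)) (x, d) * nb Q d z :=
    att_mar2 (EE Q j) (fun e => e.2) (nb Q) (fun e => e.1) x z
  rw [h1]
  refine Finset.sum_congr rfl fun d _ => ?_
  rw [mar_id]

theorem EE_tot (hE : Edge Q) (j : ℕ) : ∑ x, EE Q j x = 1 := by
  induction j with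
  | zero =>
    rw [Fintype.sum_prod_type]
    simp only [EE_zero, Finset.sum_ite_eq, Finset.mem_univ, if_true]
    rw [← hE.tot, Fintype.sum_prod_type]
    rfl
  | succ j ih =>
    rw [← EE_next, mar_total]
    exact att_total ih (GG3_one hE j)

theorem EE_fst (hE : Edge Q) (j : ℕ) : mar (EE Q j) (fun x => x.1) = mm Q := by
  induction j with
  | zero =>
    funext x
    rw [mar_prod_fst]
    simp only [EE_zero, Finset.sum_ite_eq, Finset.mem_univ, if_true]
  | succ j ih =>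
    rw [← ih]
    funext x
    rw [← EE_next, mar_mar]
    exact congrFun (mar_att_fst (GG3_one hE j) (fun e => e.1)) x

theorem EE_snd (hE : Edge Q) (j : ℕ) : mar (EE Q j) (fun x => x.2) = mm Q := by
  funext y
  rw [mar_prod_snd, ← EE_fst hE j, mar_prod_fst]
  exact Finset.sum_congr rfl fun x _ => EE_sym hE j x y

theorem ent_EE_fst (hE : Edge Q) (j : ℕ) : ent (EE Q j) (fun x => x.1) = aQ Q := by
  unfold aQ ent
  rw [EE_fst hE]
  simp_rw [mar_id]

theorem ent_EE_snd (hE : Edge Q) (j : ℕ) : ent (EE Q j) (fun x => x.2) = aQ Q := by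
  unfold aQ ent
  rw [EE_snd hE]
  simp_rw [mar_id]

theorem hh_eq (j : ℕ) : hh Q (j + 1) = ent (GG3 Q j) (fun x => (x.1.1, x.2)) := by
  unfold hh
  rw [← EE_next, ent_mar]

theorem EE_one (hE : Edge Q) : EE Q 1 = Q := by
  funext ⟨x, y⟩
  show mm Q x * zp (nb Q) 1 x y = Q (x, y)
  rw [zp_one, hE.mm_mul_nb]

theorem hh_one (hE : Edge Q) : hh Q 1 = hQ Q := by
  unfold hh hQ
  rw [EE_one hE]

theorem hh_two (hE : Edge Q) : hh Q 2 = h2Q Q := by
  rw [hh_eq 1]
  unfold h2Q GG3 C3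
  rw [EE_one hE]

theorem hh_le (hE : Edge Q) (j : ℕ) : hh Q j ≤ 2 * aQ Q := by
  have h := suba (EE_nn hE j) (EE_tot hE j) (A := fun x => x.1) (B := fun x => x.2)
    (C := fun x => x) (fun x y h1 h2 => Prod.ext h1 h2)
  rw [ent_EE_fst hE, ent_EE_snd hE] at h
  unfold hh
  linarith

theorem hh_mono (hE : Edge Q) (j : ℕ) : hh Q j ≤ hh Q (j + 1) := by
  have hnn : ∀ x, 0 ≤ GG3 Q j x := att_nonneg (EE_nn hE j) fun a b => hE.nb_nn a b
  have h1 := ent_att (f := fun e : U × U => e.2) (K := nb Q) (EE_nn hE j)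
    (fun a b => hE.nb_nn a b) (GG3_one hE j) (fun e => e) (fun e => e.2) (fun _ => rfl)
  have h2 := subm hnn (A := fun x => (x.1.1, x.2)) (B := fun x => (x.1.2, x.2))
    (C := fun x => (x.1, x.2)) (D := fun x => x.2)
    (fun x y ha hb => by
      simp only [Prod.mk.injEq] at ha hb
      exact Prod.ext (Prod.ext ha.1 hb.1) ha.2)
    (fun x y ha => by simp only [Prod.mk.injEq] at ha; exact ha.2)
    (fun x y hb => by simp only [Prod.mk.injEq] at hb; exact hb.2)
  have h3 : ent (GG3 Q j) (fun x => x.2) = aQ Q := by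
    rw [← ent_EE_snd hE (j + 1), ← EE_next, ent_mar]
  have h4 := hh_eq (Q := Q) j
  rw [ent_EE_snd hE] at h1
  have h5 : hh Q j = ent (EE Q j) (fun e => e) := rfl
  unfold GG3 at h2 h3 h4
  rw [h3] at h2
  linarith

theorem hB_le (hE : Edge Q) (j : ℕ) : hB Q j ≤ hQ Q + aQ Q := by
  have h := suba (PP_lab hE j).nn ((PP_lab hE j).tot hE) (A := fun x => x.1)
    (B := fun x => x.2.2) (C := fun x => (x.1, x.2.2)) (fun x y h1 h2 => Prod.ext h1 h2)
  have h1 := PP_label hE j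
  have h2 := (PP_lab hE j).ent_edge hE (fun e => e.2)
  rw [h1, h2, hE.ent_snd] at h
  exact h

/-- [GI] -/
theorem gInf : GInfStmt := fun _ _ _ _ hE =>
  ⟨hh_two hE, hh_le hE, hh_mono hE, hB_le hE⟩

end Vale.Agent.P050.H23
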